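import Vale.Agent.P263B15.Defs

/-!
# P263B, row CUT: the kit

* `str τ w` : the radial stretching `e ↦ e / (1 - τ ‖e‖)` of `E⁺`.
* `Su.res` : a map to `Su s k₀` with second coordinates in `Y` is a map to `Su s y₀`.
* `exists_cut` : a based null-homotopy in `Su s k₀` with a compact domain can be pushed into
  `Su s y₀` for a compact `Y ⊆ K`.
-/

open Topology Set OnePoint Filter
open scoped unitInterval

set_option linter.unusedSectionVars false

namespace Vale.Agent.P263B36

open Vale.Agent.P263B15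

section Str

variable {E X : Type} [NormedAddCommGroup E] [NormedSpace ℝ E] [TopologicalSpace X]

/-- a criterion for the continuity at a point with the value `∞` -/
theorem continuousAt_infty [ProperSpace E] {f : X → OnePoint E} {x : X} (hx : f x = ∞)
    (h : ∀ R : ℝ, 0 ≤ R → ∀ᶠ y in 𝓝 x, ∀ e : E, f y = (e : OnePoint E) → R < ‖e‖) :
    ContinuousAt f x := by
  rw [ContinuousAt, hx, (OnePoint.hasBasis_nhds_infty (X := E)).tendsto_right_iff]
  rintro C ⟨-, hC⟩
  obtain ⟨R, hR⟩ := hC.isBounded.exists_norm_le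
  filter_upwards [h (max R 0) (le_max_right _ _)] with y hy
  induction hfy : f y using OnePoint.rec with
  | infty => exact Or.inr rfl
  | coe e =>
    refine Or.inl ⟨e, fun he => ?_, rfl⟩
    exact absurd ((hR e he).trans (le_max_left R 0)) (not_le.2 (hy e hfy))

/-- `1 / (1 + ‖e‖)` -/
noncomputable def nu (w : OnePoint E) : ℝ := OnePoint.elim w 0 fun e => (1 + ‖e‖)⁻¹

theorem nu_coe (e : E) : nu (e : OnePoint E) = (1 + ‖e‖)⁻¹ := rfl

theorem nu_infty : nu (∞ : OnePoint E) = 0 := rfl

theorem continuous_nu [ProperSpace E] : Continuous (nu : OnePoint E → ℝ) := by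
  rw [OnePoint.continuous_iff]
  refine ⟨?_, ?_⟩
  · rw [coclosedCompact_eq_cocompact]
    exact tendsto_inv_atTop_zero.comp
      (tendsto_atTop_add_const_left _ 1 (tendsto_norm_cocompact_atTop (E := E)))
  · exact (continuous_const.add continuous_norm).inv₀ fun e : E =>
      (add_pos_of_pos_of_nonneg one_pos (norm_nonneg e)).ne'

open Classical in
/-- the radial stretching -/
noncomputable def str (τ : ℝ) (w : OnePoint E) : OnePoint E :=
  OnePoint.elim w ∞ fun e =>
    if τ * ‖e‖ < 1 then (((1 - τ * ‖e‖)⁻¹ • e : E) : OnePoint E) else ∞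

theorem str_infty (τ : ℝ) : str τ (∞ : OnePoint E) = ∞ := rfl

theorem str_of_lt {τ : ℝ} {e : E} (h : τ * ‖e‖ < 1) :
    str τ (e : OnePoint E) = (((1 - τ * ‖e‖)⁻¹ • e : E) : OnePoint E) := if_pos h

theorem str_of_not {τ : ℝ} {e : E} (h : ¬ τ * ‖e‖ < 1) : str τ (e : OnePoint E) = ∞ := if_neg h

theorem str_zero (w : OnePoint E) : str 0 w = w := by
  induction w using OnePoint.rec with
  | infty => rfl
  | coe e => rw [str_of_lt (by simp)]; simp

theorem str_eq_coe {τ : ℝ} {w : OnePoint E} {e' : E} (h : str τ w = (e' : OnePoint E)) :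
    ∃ e : E, w = (e : OnePoint E) ∧ τ * ‖e‖ < 1 ∧ e' = (1 - τ * ‖e‖)⁻¹ • e := by
  induction w using OnePoint.rec with
  | infty => exact absurd h (OnePoint.infty_ne_coe e')
  | coe e =>
    by_cases h1 : τ * ‖e‖ < 1
    · rw [str_of_lt h1] at h
      exact ⟨e, rfl, h1, (OnePoint.coe_injective h).symm⟩
    · rw [str_of_not h1] at h
      exact absurd h (OnePoint.infty_ne_coe e')

theorem continuous_str [ProperSpace E] :
    Continuous fun p : I × OnePoint E => str (p.1 : ℝ) p.2 := by
  rw [continuous_iff_continuousAt]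
  rintro ⟨τ, w⟩
  have hν : Continuous fun p : I × OnePoint E => nu p.2 := continuous_nu.comp continuous_snd
  have hτ : Continuous fun p : I × OnePoint E => (p.1 : ℝ) :=
    continuous_subtype_val.comp continuous_fst
  by_cases h : str (τ : ℝ) w = ∞
  · refine continuousAt_infty h fun R hR => ?_
    have h1 : 0 < (1 - nu w) - R * (nu w - τ * (1 - nu w)) := by
      induction w using OnePoint.rec with
      | infty =>
        rw [nu_infty]
        have := mul_nonneg hR τ.2.1
        nlinarith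
      | coe e =>
        have h2 : ¬ (τ : ℝ) * ‖e‖ < 1 := fun h3 => by
          rw [str_of_lt h3] at h
          exact OnePoint.coe_ne_infty _ h
        have h3 : 0 < 1 + ‖e‖ := by positivity
        have h4 : 0 < ‖e‖ := by
          rcases (norm_nonneg e).eq_or_lt with h5 | h5
          · exact absurd (by rw [← h5]; simp) h2
          · exact h5
        have h5 : (1 - nu (e : OnePoint E)) - R * (nu (e : OnePoint E) -
            τ * (1 - nu (e : OnePoint E))) = (‖e‖ + R * (τ * ‖e‖ - 1)) / (1 + ‖e‖) := by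
          rw [nu_coe]
          field_simp
          ring
        rw [h5]
        have h6 := mul_nonneg hR (sub_nonneg.2 (not_lt.1 h2))
        positivity
    have h2 : Continuous fun p : I × OnePoint E =>
        (1 - nu p.2) - R * (nu p.2 - p.1 * (1 - nu p.2)) := by fun_prop
    filter_upwards [(isOpen_lt continuous_const h2).mem_nhds (x := (τ, w)) h1] with p hp e' he'
    obtain ⟨e, he, h3, rfl⟩ := str_eq_coe he'
    have h4 : 0 < 1 - (p.1 : ℝ) * ‖e‖ := sub_pos.2 h3
    have h5 : 0 < 1 + ‖e‖ := by positivity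
    have h6 : 0 < (1 - nu p.2) - R * (nu p.2 - p.1 * (1 - nu p.2)) := hp
    have h7 : (1 - nu p.2) - R * (nu p.2 - p.1 * (1 - nu p.2)) =
        (‖e‖ - R * (1 - p.1 * ‖e‖)) / (1 + ‖e‖) := by
      rw [he, nu_coe]
      field_simp
      ring
    rw [h7, div_pos_iff_of_pos_right h5] at h6
    rw [norm_smul, Real.norm_of_nonneg (inv_nonneg.2 h4.le), inv_mul_eq_div, lt_div_iff₀ h4]
    linarith
  · obtain ⟨e', he'⟩ := OnePoint.ne_infty_iff_exists.1 h
    obtain ⟨e, rfl, h1, -⟩ := str_eq_coe he'.symm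
    have ho : IsOpenEmbedding (Prod.map id ((↑) : E → OnePoint E) : I × E → I × OnePoint E) :=
      IsOpenEmbedding.id.prodMap OnePoint.isOpenEmbedding_coe
    refine (ho.continuousAt_iff (x := (τ, e))).1 ?_
    have h2 : Continuous fun p : I × E => (p.1 : ℝ) * ‖p.2‖ := by fun_prop
    have h3 : ContinuousAt (fun p : I × E =>
        (((1 - (p.1 : ℝ) * ‖p.2‖)⁻¹ • p.2 : E) : OnePoint E)) (τ, e) :=
      OnePoint.continuous_coe.continuousAt.comp
        (((continuous_const.sub h2).continuousAt.inv₀ (sub_pos.2 h1).ne').smul continuousAt_snd)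
    refine h3.congr ?_
    filter_upwards [(isOpen_lt h2 continuous_const).mem_nhds (x := (τ, e)) h1] with p hp
    exact (str_of_lt hp).symm

end Str

section Res

variable {E K X : Type} [NormedAddCommGroup E] [NormedSpace ℝ E] [TopologicalSpace K]
  [TopologicalSpace X] {s : E →L[ℝ] ℝ} {k₀ : K}

theorem passive_str (g : X → Su s k₀) (τ : X → ℝ) :
    Passive s g fun x => str (τ x) (g x).1.1 := by
  refine ⟨fun x hx => (congrArg (str (τ x)) hx).trans (str_infty _), fun x e e' he he' => ?_⟩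
  obtain ⟨e₁, h1, h2, rfl⟩ := str_eq_coe he'
  obtain rfl : e = e₁ := OnePoint.coe_injective (he.symm.trans h1)
  exact ⟨_, inv_nonneg.2 (sub_pos.2 h2).le, by rw [ContinuousLinearMap.map_smul, smul_eq_mul]⟩

/-- the inclusion of `Ext Y` -/
def Ext.inc (Y : Set K) (κ : Ext Y) : Ext K := Option.map Subtype.val κ

theorem Ext.inc_of (Y : Set K) (y : Y) : Ext.inc Y (Ext.of y) = Ext.of y.1 := rfl

theorem Ext.inc_no (Y : Set K) : Ext.inc Y (Ext.no Y) = Ext.no K := rfl

theorem Ext.inc_inj (Y : Set K) : Function.Injective (Ext.inc Y) :=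
  Option.map_injective Subtype.val_injective

theorem Ext.continuous_of_inc {Y : Set K} {h : X → Ext Y}
    (hh : Continuous fun x => Ext.inc Y (h x)) : Continuous h := by
  rw [continuous_def]
  intro O hO
  by_cases h1 : Ext.no Y ∈ O
  · rw [hO.2 h1]
    exact isOpen_univ
  · obtain ⟨V, hV, hVO⟩ := isOpen_induced_iff.1 hO.1
    have h2 : h ⁻¹' O = (fun x => Ext.inc Y (h x)) ⁻¹' (Ext.of '' V) := by
      ext x
      rcases Ext.cases (h x) with h3 | ⟨y, h3⟩
      · simp only [mem_preimage, h3, Ext.inc_no]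
        exact ⟨fun h4 => absurd h4 h1, fun ⟨k, _, hk⟩ => absurd hk (Ext.of_ne k)⟩
      · simp only [mem_preimage, h3, Ext.inc_of]
        refine ⟨fun h4 => ⟨y.1, ?_, rfl⟩, fun ⟨k, hk, h4⟩ => ?_⟩
        · have h5 : y ∈ Ext.of ⁻¹' O := h4
          rw [← hVO] at h5
          exact h5
        · have h5 : y ∈ Subtype.val ⁻¹' V := by
            show y.1 ∈ V
            rw [← Ext.of_inj h4]
            exact hk
          rw [hVO] at h5
          exact h5
    rw [h2]
    exact (Ext.isOpen_image hV).preimage hh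

/-- a continuous map with second coordinates in `Y` is a continuous map to `Su s y₀` -/
theorem exists_res {Y : Set K} (y₀ : Y) (g : X → Su s y₀.1) (hg : Continuous g)
    (hY : ∀ x k, (g x).1.2 = Ext.of k → k ∈ Y) :
    ∃ g' : C(X, Su s y₀), ∀ x, (g' x).1.1 = (g x).1.1 ∧ Ext.inc Y (g' x).1.2 = (g x).1.2 := by
  have h1 : ∀ x, ∃ p : Su s y₀, p.1.1 = (g x).1.1 ∧ Ext.inc Y p.1.2 = (g x).1.2 := by
    intro x
    rcases Su.cases (g x) with h | ⟨e, k, hk, h⟩
    · exact ⟨Su.inf s y₀, by rw [h]; exact ⟨rfl, rfl⟩⟩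
    · have h2 : k ∈ Y := hY x k (by rw [h]; rfl)
      refine ⟨Su.mk s y₀ e ⟨k, h2⟩ ⟨hk.1, hk.2.imp id fun h2 => Subtype.ext h2⟩, ?_⟩
      rw [h]
      exact ⟨rfl, rfl⟩
  choose g' hg' using h1
  refine ⟨⟨g', Su.continuous_iff.2 ⟨?_, Ext.continuous_of_inc ?_⟩⟩, hg'⟩
  · exact (Su.continuous_fst.comp hg).congr fun x => (hg' x).1.symm
  · exact (Su.continuous_snd.comp hg).congr fun x => (hg' x).2.symm

/-- the second coordinates at the points with a first coordinate of norm at most one lie in a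
compact set -/
theorem exists_compact [ProperSpace E] [CompactSpace X] (g : X → Su s k₀) (hg : Continuous g) :
    ∃ C : Set K, IsCompact C ∧
      ∀ x (e : E) k, (g x).1.1 = (e : OnePoint E) → ‖e‖ ≤ 1 → (g x).1.2 = Ext.of k → k ∈ C := by
  have h1 : IsCompact {x | (g x).1.1 ∈ ((↑) : E → OnePoint E) '' Metric.closedBall 0 1} :=
    (((isCompact_closedBall (0 : E) 1).image OnePoint.continuous_coe).isClosed.preimage
      (Su.continuous_fst.comp hg)).isCompact
  have h2 := h1.image (Su.continuous_snd.comp hg)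
  refine ⟨Ext.of ⁻¹' _, (Ext.isOpenEmbedding_of (K := K)).isInducing.isCompact_preimage' h2 ?_,
    fun x e k he h3 hk => ⟨x, ⟨e, mem_closedBall_zero_iff.2 h3, he.symm⟩, hk⟩⟩
  rintro _ ⟨x, ⟨e, -, he⟩, rfl⟩
  rcases Ext.cases (g x).1.2 with h3 | ⟨k, h3⟩
  · exact absurd (he.trans ((g x).2.1.2 h3)) (OnePoint.coe_ne_infty e)
  · exact ⟨k, h3.symm⟩

/-- a map is homotopic to its stretching -/
theorem exists_str [ProperSpace E] (a : C(X, Su s k₀)) :
    ∃ a₁ : C(X, Su s k₀), (∀ x, (a₁ x).1.1 = str 1 (a x).1.1 ∧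
      ((a₁ x).1.1 ≠ ∞ → (a₁ x).1.2 = (a x).1.2)) ∧
      ∀ x₀, a x₀ = Su.inf s k₀ → a.HomotopicRel a₁ {x₀} := by
  have hp := passive_str (fun p : I × X => a p.2) fun p => (p.1 : ℝ)
  have hc : Continuous (Su.lift hp) :=
    Su.continuous_lift hp (a.continuous.comp continuous_snd)
      (continuous_str.comp (continuous_fst.prodMk
        (Su.continuous_fst.comp (a.continuous.comp continuous_snd))))
  refine ⟨⟨fun x => Su.lift hp (1, x), hc.comp (Continuous.prodMk_right 1)⟩,
    fun x => ⟨rfl, fun h => Su.lift_snd hp h⟩, fun x₀ h₀ => ⟨⟨⟨⟨Su.lift hp, hc⟩, fun x => ?_,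
      fun x => rfl⟩, fun t x hx => ?_⟩⟩⟩
  · exact Su.ext (str_zero _) fun h => Su.lift_snd hp h
  · rw [mem_singleton_iff.1 hx, h₀]
    refine Su.eq_inf ?_
    show str (t : ℝ) (a x₀).1.1 = ∞
    rw [h₀]
    rfl

end Res

end Vale.Agent.P263B36
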