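import Vale.Agent.P263B15.Rows
import Vale.Agent.P263B36.Kit

/-!
# P263B: the rows `JC` and `CUT`
-/

open Topology Set OnePoint Filter
open scoped unitInterval

namespace Vale.Agent.P263B36

open Vale.Agent.P263B15

theorem jc : JC := by
  intro n N K _ _ _ k₀ f
  have hc : Continuous fun p : (Fin n → ℝ) × N => JF n k₀ f (p : OnePoint _) := by
    refine Su.continuous_iff.2 ⟨?_, ?_⟩
    · exact OnePoint.continuous_coe.comp (continuous_fst.prodMk continuous_const)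
    · exact Ext.continuous_of.comp (f.continuous.comp continuous_snd)
  rw [continuous_iff_continuousAt]
  intro z
  induction z using OnePoint.rec with
  | coe p => exact (OnePoint.isOpenEmbedding_coe.continuousAt_iff (x := p)).1 hc.continuousAt
  | infty =>
    refine (IsInducing.subtypeVal.continuousAt_iff).2 (ContinuousAt.prodMk ?_ ?_)
    · refine continuousAt_infty (f := fun z => (JF n k₀ f z).1.1) rfl fun R _ => ?_
      have h1 : IsClosed (Metric.closedBall (0 : Fin n → ℝ) R ×ˢ (univ : Set N)) :=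
        Metric.isClosed_closedBall.prod isClosed_univ
      have h2 : IsCompact (Metric.closedBall (0 : Fin n → ℝ) R ×ˢ (univ : Set N)) :=
        (isCompact_closedBall _ _).prod isCompact_univ
      filter_upwards [OnePoint.hasBasis_nhds_infty.mem_of_mem ⟨h1, h2⟩] with y hy e he
      rcases hy with ⟨p, hp, rfl⟩ | hy
      · obtain rfl : ((p.1, 0) : (Fin n → ℝ) × ℝ) = e := OnePoint.coe_injective he
        by_contra h3
        exact hp ⟨mem_closedBall_zero_iff.2 ((norm_fst_le ((p.1, 0) : (Fin n → ℝ) × ℝ)).trans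
          (not_lt.1 h3)), trivial⟩
      · rw [mem_singleton_iff.1 hy] at he
        exact absurd he (OnePoint.infty_ne_coe e)
    · exact Ext.continuousAt_no (f := fun z => (JF n k₀ f z).1.2) rfl

theorem JF_res {n : ℕ} {N K : Type} [TopologicalSpace K] {Y : Set K} (y₀ : Y) (f : N → K)
    (hf : ∀ p, f p ∈ Y) (z : OnePoint ((Fin n → ℝ) × N)) :
    (JF n y₀ (fun p => ⟨f p, hf p⟩) z).1.1 = (JF n y₀.1 f z).1.1 ∧
      Ext.inc Y (JF n y₀ (fun p => ⟨f p, hf p⟩) z).1.2 = (JF n y₀.1 f z).1.2 := by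
  induction z using OnePoint.rec with
  | infty => exact ⟨rfl, rfl⟩
  | coe p => exact ⟨rfl, rfl⟩

theorem cut : CUT := by
  intro m n N K _ _ _ k₀ c f f' g g' hc hg hg' ⟨H⟩
  have hH : Continuous fun p : I × Sp m => H p := H.continuous
  obtain ⟨C, hC, hCm⟩ := exists_compact (fun p : I × Sp m => H p) hH
  obtain ⟨Y, hY⟩ : ∃ Y : Set K, Y = C ∪ range f ∪ range f' ∪ {k₀} := ⟨_, rfl⟩
  have h₀ : k₀ ∈ Y := hY ▸ Or.inr rfl
  have hf : ∀ p, f p ∈ Y := fun p => hY ▸ Or.inl (Or.inl (Or.inr ⟨p, rfl⟩))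
  have hf' : ∀ p, f' p ∈ Y := fun p => hY ▸ Or.inl (Or.inr ⟨p, rfl⟩)
  have hCY : ∀ k ∈ C, k ∈ Y := fun k hk => hY ▸ Or.inl (Or.inl (Or.inl hk))
  have hYc : IsCompact Y := hY ▸ ((hC.union (isCompact_range f.continuous)).union
    (isCompact_range f'.continuous)).union isCompact_singleton
  have hp := passive_str (fun p : I × Sp m => H p) fun _ => (1 : ℝ)
  have hl : Continuous (Su.lift hp) := Su.continuous_lift hp hH
    (continuous_str.comp ((continuous_const (y := (1 : I))).prodMk (Su.continuous_fst.comp hH)))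
  obtain ⟨G, hG⟩ := exists_res (⟨k₀, h₀⟩ : Y) (Su.lift hp) hl fun x k hk => by
    have h1 : (Su.lift hp x).1.1 ≠ ∞ := fun h2 =>
      Ext.of_ne k (hk.symm.trans ((Su.lift hp x).2.1.1 h2))
    obtain ⟨e', he'⟩ := OnePoint.ne_infty_iff_exists.1 h1
    obtain ⟨e, he, h2, -⟩ := str_eq_coe (τ := 1) (w := (H x).1.1) he'.symm
    exact hCY k (hCm x e k he (by linarith) ((Su.lift_snd hp h1).symm.trans hk))
  have key : ∀ (φ : C(N, K)) (hφ : ∀ p, φ p ∈ Y) (t : I),
      (∀ z, H (t, z) = JF n k₀ φ (c z)) → ∃ a : C(Sp m, SuN n (⟨k₀, h₀⟩ : Y)),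
      (∀ z, a z = JF n (⟨k₀, h₀⟩ : Y) (fun p => ⟨φ p, hφ p⟩) (c z)) ∧
        a.HomotopicRel ⟨fun z => G (t, z), G.continuous.comp (Continuous.prodMk_right t)⟩
          {∞} := by
    intro φ hφ t ht
    have h1 := jc n N Y ⟨k₀, h₀⟩ ⟨fun p => ⟨φ p, hφ p⟩, φ.continuous.subtype_mk _⟩
    refine ⟨⟨fun z => JF n (⟨k₀, h₀⟩ : Y) (fun p => ⟨φ p, hφ p⟩) (c z), h1.comp c.continuous⟩,
      fun _ => rfl, ?_⟩
    obtain ⟨a₁, h2, h3⟩ := exists_str (⟨fun z => JF n (⟨k₀, h₀⟩ : Y)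
      (fun p => ⟨φ p, hφ p⟩) (c z), h1.comp c.continuous⟩ : C(Sp m, SuN n (⟨k₀, h₀⟩ : Y)))
    have h4 : a₁ = ⟨fun z => G (t, z), G.continuous.comp (Continuous.prodMk_right t)⟩ := by
      refine ContinuousMap.ext fun z => ?_
      have h5 := JF_res (n := n) (⟨k₀, h₀⟩ : Y) φ hφ (c z)
      have h6 : (a₁ z).1.1 = (Su.lift hp (t, z)).1.1 := by
        refine (h2 z).1.trans ?_
        show str 1 _ = str 1 (H (t, z)).1.1
        rw [ht]
        exact congrArg (str 1) h5.1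
      refine Su.ext (h6.trans (hG (t, z)).1.symm) fun h7 => Ext.inc_inj Y ?_
      refine Eq.trans ?_ (hG (t, z)).2.symm
      rw [(h2 z).2 h7, Su.lift_snd hp (x := (t, z)) fun h8 => h7 (h6.trans h8)]
      refine h5.2.trans ?_
      show _ = (H (t, z)).1.2
      rw [ht]
    rw [← h4]
    refine h3 ∞ ?_
    exact congrArg (JF n (⟨k₀, h₀⟩ : Y) fun p => ⟨φ p, hφ p⟩) hc
  obtain ⟨a, ha, h0⟩ := key f hf 0 fun z => (H.apply_zero z).trans (hg z)
  obtain ⟨a', ha', h1⟩ := key f' hf' 1 fun z => (H.apply_one z).trans (hg' z)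
  refine ⟨Y, h₀, hf, hf', a, a', hYc, ha, ha', h0.trans (ContinuousMap.HomotopicRel.trans
    ⟨⟨⟨G, fun _ => rfl, fun _ => rfl⟩, fun t x hx => ?_⟩⟩ h1.symm)⟩
  have h2 : ∀ t, G (t, ∞) = Su.inf _ _ := fun t => by
    refine Su.eq_inf ((hG (t, ∞)).1.trans ?_)
    show str 1 (H (t, ∞)).1.1 = ∞
    rw [H.eq_fst t (mem_singleton _), hg, hc]
    rfl
  rw [mem_singleton_iff.1 hx]
  exact (h2 t).trans (h2 0).symm

end Vale.Agent.P263B36
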